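import Vale.Agent.P333.H537.Tf.I2.Str

set_option autoImplicit false

/-!
P333: a family of strings for which every run of the greedy algorithm gives a superstring longer
than twice a shortest one. The strings are packed as numbers in base 8.
-/

namespace Vale.Agent.P333.H537.Tf.I2

open Vale.Agent.P333 Vale.Agent.P333.H537.Tf

theorem red : Greedy.Reduced (fam.map str) (fam.map str) :=
  reduced_of (by decide +kernel) (by decide +kernel)

theorem opt_le : opt (fam.map str) ≤ 1058 :=
  opt_le_of tt [622, 445, 163, 2, 770, 534, 294, 5, 771, 603, 310, 146, 0] (by decide +kernel)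

theorem out11 : Out [m10, m6] 2163 :=
  out_zero (by decide +kernel) (by decide +kernel) (by decide +kernel)

theorem out10 : Out
    [m9, m8, m6] 2163 :=
  out_step m9 m8 m10
    [m6] 1
    ((List.perm_middle (l₁ := []) (a := m9)
      (l₂ := [m8, m6])).trans
      ((List.perm_middle (l₁ := []) (a := m8)
      (l₂ := [m6])).cons m9))
    (by decide +kernel) (by decide +kernel) (by decide +kernel) (by decide +kernel)
    (by decide +kernel) (by decide +kernel) (by decide +kernel) out11

theorem out9 : Out
    [m8, m6, m5, m1] 2163 :=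
  out_step m1 m5 m9
    [m8, m6] 3
    ((List.perm_middle (l₁ := [m8, m6, m5]) (a := m1)
      (l₂ := [])).trans
      ((List.perm_middle (l₁ := [m8, m6]) (a := m5)
      (l₂ := [])).cons m1))
    (by decide +kernel) (by decide +kernel) (by decide +kernel) (by decide +kernel)
    (by decide +kernel) (by decide +kernel) (by decide +kernel) out10

theorem out8 : Out
    [m7, m6, m5, m3, m1] 2163 :=
  out_step m3 m7 m8
    [m6, m5, m1] 60
    ((List.perm_middle (l₁ := [m7, m6, m5]) (a := m3)
      (l₂ := [m1])).trans
      ((List.perm_middle (l₁ := []) (a := m7)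
      (l₂ := [m6, m5, m1])).cons m3))
    (by decide +kernel) (by decide +kernel) (by decide +kernel) (by decide +kernel)
    (by decide +kernel) (by decide +kernel) (by decide +kernel) out9

theorem out7 : Out
    [m6, m5, m3, m1, s0, s4] 2163 :=
  out_step s0 s4 m7
    [m6, m5, m3, m1] 284
    ((List.perm_middle (l₁ := [m6, m5, m3, m1]) (a := s0)
      (l₂ := [s4])).trans
      ((List.perm_middle (l₁ := [m6, m5, m3, m1]) (a := s4)
      (l₂ := [])).cons s0))
    (by decide +kernel) (by decide +kernel) (by decide +kernel) (by decide +kernel)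
    (by decide +kernel) (by decide +kernel) (by decide +kernel) out8

theorem out6 : Out
    [m5, m4, m3, m1, s0, s4, s8] 2163 :=
  out_step s8 m4 m6
    [m5, m3, m1, s0, s4] 286
    ((List.perm_middle (l₁ := [m5, m4, m3, m1, s0, s4]) (a := s8)
      (l₂ := [])).trans
      ((List.perm_middle (l₁ := [m5]) (a := m4)
      (l₂ := [m3, m1, s0, s4])).cons s8))
    (by decide +kernel) (by decide +kernel) (by decide +kernel) (by decide +kernel)
    (by decide +kernel) (by decide +kernel) (by decide +kernel) out7

theorem out5 : Out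
    [m4, m3, m1, s0, s3, s4, s7, s8] 2163 :=
  out_step s3 s7 m5
    [m4, m3, m1, s0, s4, s8] 293
    ((List.perm_middle (l₁ := [m4, m3, m1, s0]) (a := s3)
      (l₂ := [s4, s7, s8])).trans
      ((List.perm_middle (l₁ := [m4, m3, m1, s0, s4]) (a := s7)
      (l₂ := [s8])).cons s3))
    (by decide +kernel) (by decide +kernel) (by decide +kernel) (by decide +kernel)
    (by decide +kernel) (by decide +kernel) (by decide +kernel) out6

theorem out4 : Out
    [m3, m2, m1, s0, s3, s4, s7, s8, s12] 2163 :=
  out_step m2 s12 m4
    [m3, m1, s0, s3, s4, s7, s8] 295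
    ((List.perm_middle (l₁ := [m3]) (a := m2)
      (l₂ := [m1, s0, s3, s4, s7, s8, s12])).trans
      ((List.perm_middle (l₁ := [m3, m1, s0, s3, s4, s7, s8]) (a := s12)
      (l₂ := [])).cons m2))
    (by decide +kernel) (by decide +kernel) (by decide +kernel) (by decide +kernel)
    (by decide +kernel) (by decide +kernel) (by decide +kernel) out5

theorem out3 : Out
    [m2, m1, s0, s1, s3, s4, s5, s7, s8, s12] 2163 :=
  out_step s1 s5 m3
    [m2, m1, s0, s3, s4, s7, s8, s12] 296
    ((List.perm_middle (l₁ := [m2, m1, s0]) (a := s1)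
      (l₂ := [s3, s4, s5, s7, s8, s12])).trans
      ((List.perm_middle (l₁ := [m2, m1, s0, s3, s4]) (a := s5)
      (l₂ := [s7, s8, s12])).cons s1))
    (by decide +kernel) (by decide +kernel) (by decide +kernel) (by decide +kernel)
    (by decide +kernel) (by decide +kernel) (by decide +kernel) out4

theorem out2 : Out
    [m1, m0, s0, s1, s3, s4, s5, s7, s8, s9, s12] 2163 :=
  out_step s9 m0 m2
    [m1, s0, s1, s3, s4, s5, s7, s8, s12] 298
    ((List.perm_middle (l₁ := [m1, m0, s0, s1, s3, s4, s5, s7, s8]) (a := s9)
      (l₂ := [s12])).trans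
      ((List.perm_middle (l₁ := [m1]) (a := m0)
      (l₂ := [s0, s1, s3, s4, s5, s7, s8, s12])).cons s9))
    (by decide +kernel) (by decide +kernel) (by decide +kernel) (by decide +kernel)
    (by decide +kernel) (by decide +kernel) (by decide +kernel) out3

theorem out1 : Out
    [m0, s0, s1, s2, s3, s4, s5, s6, s7, s8, s9, s12] 2163 :=
  out_step s2 s6 m1
    [m0, s0, s1, s3, s4, s5, s7, s8, s9, s12] 300
    ((List.perm_middle (l₁ := [m0, s0, s1]) (a := s2)
      (l₂ := [s3, s4, s5, s6, s7, s8, s9, s12])).trans
      ((List.perm_middle (l₁ := [m0, s0, s1, s3, s4, s5]) (a := s6)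
      (l₂ := [s7, s8, s9, s12])).cons s2))
    (by decide +kernel) (by decide +kernel) (by decide +kernel) (by decide +kernel)
    (by decide +kernel) (by decide +kernel) (by decide +kernel) out2

theorem out0 : Out
    [s0, s1, s2, s3, s4, s5, s6, s7, s8, s9, s10, s11, s12] 2163 :=
  out_step s10 s11 m0
    [s0, s1, s2, s3, s4, s5, s6, s7, s8, s9, s12] 302
    ((List.perm_middle (l₁ := [s0, s1, s2, s3, s4, s5, s6, s7, s8, s9]) (a := s10)
      (l₂ := [s11, s12])).trans
      ((List.perm_middle (l₁ := [s0, s1, s2, s3, s4, s5, s6, s7, s8, s9]) (a := s11)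
      (l₂ := [s12])).cons s10))
    (by decide +kernel) (by decide +kernel) (by decide +kernel) (by decide +kernel)
    (by decide +kernel) (by decide +kernel) (by decide +kernel) out1

/-- **Every output of the greedy algorithm is longer than twice a shortest superstring.** -/
theorem main : ∃ S : List (List ℕ), S ≠ [] ∧ Greedy.Reduced S S ∧
    ∀ t : List ℕ, Greedy.Output S t → 2 * opt S < t.length ∧ 2163 * opt S ≤ 1058 * t.length := by
  refine ⟨fam.map str, by decide +kernel, red, fun t ht => ?_⟩
  have h1 := opt_le
  have h2 := output_all red out0 ht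
  omega

end Vale.Agent.P333.H537.Tf.I2
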